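import Mathlib

/-! P362: query complexity models (deterministic, randomized, quantum). -/

namespace P362

/-- deterministic decision trees on variables `V` with outputs in `R` -/
inductive DT (V : Type) (R : Type) : Type
  | leaf (r : R) : DT V R
  | node (v : V) (t0 t1 : DT V R) : DT V R

namespace DT

variable {V R : Type}

/-- number of queries in the worst case -/
def depth : DT V R → ℕ
  | leaf _ => 0
  | node _ t0 t1 => max t0.depth t1.depth + 1

/-- output on input `x` -/
def eval : DT V R → (V → Bool) → R
  | leaf r, _ => r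
  | node v t0 t1, x => if x v then t1.eval x else t0.eval x

end DT

/-- randomized query algorithms with at most `T` queries and success probability at least `2/3`
on every input -/
def RandComputes {V : Type} (T : ℕ) (f : (V → Bool) → Bool) : Prop :=
  ∃ P : PMF (DT V Bool), (∀ t ∈ P.support, t.depth ≤ T) ∧
    ∀ x, 2 / 3 ≤ P.toOuterMeasure {t | t.eval x = f x}

/-- bounded-error randomized query complexity -/
noncomputable def RQ {V : Type} (f : (V → Bool) → Bool) : ℕ := sInf {T | RandComputes T f}

/-- the query unitary `|i,b,z> -> |i, b xor x_i, z>` acting on amplitude vectors -/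
def oracle {V W : Type} (x : V → Bool) (ψ : V × Bool × W → ℂ) : V × Bool × W → ℂ :=
  fun p => ψ (p.1, xor p.2.1 (x p.1), p.2.2)

/-- quantum query algorithm with `T` queries, input variables `V`, outputs in `R` -/
structure QAlg (V : Type) [Fintype V] [DecidableEq V] (R : Type) (T : ℕ) where
  W : Type
  [fW : Fintype W]
  [dW : DecidableEq W]
  init : V × Bool × W → ℂ
  init_norm : ∑ p, ‖init p‖ ^ 2 = 1
  U : Fin (T + 1) → Matrix (V × Bool × W) (V × Bool × W) ℂ
  unitary : ∀ t, U t ∈ Matrix.unitaryGroup (V × Bool × W) ℂ
  out : V × Bool × W → R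

attribute [instance] QAlg.fW QAlg.dW

namespace QAlg

variable {V : Type} [Fintype V] [DecidableEq V] {R : Type} {T : ℕ}

/-- state after `t` queries (for `t ≤ T`) -/
noncomputable def state (A : QAlg V R T) (x : V → Bool) : ℕ → (V × Bool × A.W → ℂ)
  | 0 => (A.U 0).mulVec A.init
  | t + 1 => (A.U (Fin.ofNat (T + 1) (t + 1))).mulVec (oracle x (A.state x t))

/-- probability of the output `r` on the input `x` -/
noncomputable def prob [DecidableEq R] (A : QAlg V R T) (x : V → Bool) (r : R) : ℝ :=
  ∑ p, if A.out p = r then ‖A.state x T p‖ ^ 2 else 0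

end QAlg

/-- quantum query algorithms with `T` queries and success probability at least `2/3` on every
input -/
def QuantComputes {V : Type} [Fintype V] [DecidableEq V] (T : ℕ) (f : (V → Bool) → Bool) : Prop :=
  ∃ A : QAlg V Bool T, ∀ x, 2 / 3 ≤ A.prob x (f x)

/-- bounded-error quantum query complexity -/
noncomputable def QQ {V : Type} [Fintype V] [DecidableEq V] (f : (V → Bool) → Bool) : ℕ :=
  sInf {T | QuantComputes T f}

/-- kernels `μ : inputs -> distributions on R` realized by quantum algorithms with at most `q`
queries -/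
def Realizable {V : Type} [Fintype V] [DecidableEq V] {R : Type} [DecidableEq R] (q : ℕ)
    (μ : (V → Bool) → R → ℝ) : Prop :=
  ∃ T ≤ q, ∃ A : QAlg V R T, ∀ x r, A.prob x r = μ x r

/-- index set of size `2^l` -/
abbrev I (l : ℕ) := Fin l → Bool

/-- sign of a bit: `true` is `-1` -/
def sgn (b : Bool) : ℤ := if b then -1 else 1

/-- entries of the unnormalized Walsh-Hadamard matrix -/
def had {l : ℕ} (i i' : I l) : ℤ := ∏ c, (if i c && i' c then -1 else 1)

/-- unnormalized `(m+1)`-fold Forrelation -/
def forrZ (m l : ℕ) (x : Fin (m + 1) × I l → Bool) : ℤ :=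
  ∑ i : Fin (m + 1) → I l,
    (∏ j, sgn (x (j, i j))) * ∏ j : Fin m, had (i j.castSucc) (i j.succ)

/-- `(m+1)`-fold Forrelation, a number in `[-1, 1]` -/
noncomputable def forr (m l : ℕ) (x : Fin (m + 1) × I l → Bool) : ℝ :=
  (forrZ m l x : ℝ) / (Real.sqrt (2 ^ l)) ^ (m + 2)

end P362
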