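import Vale.Agent.Lib.P362.Defs

/-! P362: the total function `F`. -/

namespace P362

/-- variables of a column: rows of the matrix `v`, bits of `w` -/
abbrev V1 (m l a L : ℕ) := I l ⊕ (Fin a × Fin L × (Fin (m + 1) × I l))

/-- number of bits of an encoded integer -/
def Bt (m l : ℕ) : ℕ := (m + 1) * l + 2

/-- variables of a cell of the array: rows `z_j`, tableau -/
abbrev V2 (m l a L : ℕ) :=
  (I l × Fin l) ⊕ (Fin a × Fin L × Fin (m + 1) × Fin (l + 1) × I l × Fin (Bt m l))

/-- variables of `F` -/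
abbrev VF (m l a L : ℕ) := (I l × V1 m l a L) ⊕ ((Fin a → Bool) × V2 m l a L)

set_option synthInstance.maxSize 2000 in
instance instDecV1 (m l a L : ℕ) : DecidableEq (V1 m l a L) := inferInstance

set_option synthInstance.maxSize 2000 in
instance instDecV2 (m l a L : ℕ) : DecidableEq (V2 m l a L) := inferInstance

set_option synthInstance.maxSize 2000 in
instance instDecVF (m l a L : ℕ) : DecidableEq (VF m l a L) :=
  fun x y => instDecidableEqSum x y

variable {m l a L : ℕ}

/-- matrix entry, row `i`, column `b` -/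
def vbit (x : VF m l a L → Bool) (i b : I l) : Bool := x (Sum.inl (b, Sum.inl i))

/-- the block of `w` for column `b`, address bit `s`, copy `c` -/
def wblk (x : VF m l a L → Bool) (b : I l) (s : Fin a) (c : Fin L) : Fin (m + 1) × I l → Bool :=
  fun p => x (Sum.inl (b, Sum.inr (s, c, p)))

/-- the row listed for column `j` in the cell `ρ` -/
def zrow (x : VF m l a L → Bool) (ρ : Fin a → Bool) (j : I l) : I l :=
  fun e => x (Sum.inr (ρ, Sum.inl (j, e)))

/-- decoding of an integer (offset binary) -/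
def decZ (n : ℕ) (y : Fin (n + 2) → Bool) : ℤ :=
  (∑ β, if y β then 2 ^ (β : ℕ) else 0) - 2 ^ (n + 1)

/-- tableau entry in the cell `ρ` -/
def tau (x : VF m l a L → Bool) (ρ : Fin a → Bool) (s : Fin a) (c : Fin L) (j : Fin (m + 1))
    (e : Fin (l + 1)) (i : I l) : ℤ :=
  decZ ((m + 1) * l) (fun β => x (Sum.inr (ρ, Sum.inr (s, c, j, e, i, β))))

/-- indices of the local checks: (V), (Z), (T0), (T1), (T2) -/
abbrev Ch (m l a L : ℕ) :=
  I l ⊕ I l ⊕ (Fin a × Fin L × I l) ⊕ (Fin a × Fin L × Fin m × I l) ⊕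
    (Fin a × Fin L × Fin (m + 1) × Fin l × I l)

noncomputable instance instDecCh (m l a L : ℕ) : DecidableEq (Ch m l a L) := Classical.decEq _

/-- the local checks -/
def chkP (x : VF m l a L → Bool) (b : I l) (ρ : Fin a → Bool) : Ch m l a L → Prop
  | Sum.inl i => vbit x i b = true
  | Sum.inr (Sum.inl j) => j ≠ b → vbit x (zrow x ρ j) j = false
  | Sum.inr (Sum.inr (Sum.inl (s, c, i))) =>
      tau x ρ s c (Fin.last m) 0 i = sgn (wblk x b s c (Fin.last m, i))
  | Sum.inr (Sum.inr (Sum.inr (Sum.inl (s, c, j, i)))) =>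
      tau x ρ s c j.castSucc 0 i =
        sgn (wblk x b s c (j.castSucc, i)) * tau x ρ s c j.succ (Fin.last l) i
  | Sum.inr (Sum.inr (Sum.inr (Sum.inr (s, c, j, e, i)))) =>
      tau x ρ s c j e.succ i =
        tau x ρ s c j e.castSucc (Function.update i e false) +
          (if i e then -1 else 1) * tau x ρ s c j e.castSucc (Function.update i e true)

/-- the head condition: the tableau values of the Forrelations encode `ρ` with margin `θ` -/
def headP (θ : ℤ) (x : VF m l a L → Bool) (ρ : Fin a → Bool) : Prop :=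
  ∀ s, if ρ s then θ ≤ ∑ c, tau x ρ s c 0 (Fin.last l) (fun _ => false)
    else ∑ c, tau x ρ s c 0 (Fin.last l) (fun _ => false) ≤ -θ

def FValid (θ : ℤ) (x : VF m l a L → Bool) (b : I l) (ρ : Fin a → Bool) : Prop :=
  headP θ x ρ ∧ ∀ ch, chkP x b ρ ch

open Classical in
/-- the total function -/
noncomputable def FF (m l a L : ℕ) (θ : ℤ) (x : VF m l a L → Bool) : Bool :=
  decide (∃ b ρ, FValid θ x b ρ)

end P362
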