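import Vale.Agent.Lib.P362.Interface
import Vale.Agent.Lib.P362.FDefs

/-! P362: statements about `F`. -/

namespace P362

/-- soundness of the tableau -/
def FTabSound : Prop :=
  ∀ (m l a L : ℕ) (x : VF m l a L → Bool) (b : I l) (ρ : Fin a → Bool),
    (∀ ch, chkP x b ρ ch) → ∀ s c,
      tau x ρ s c 0 (Fin.last l) (fun _ => false) = forrZ m l (wblk x b s c)

/-- completeness: the correct content of the cell exists -/
def FTabComplete : Prop :=
  ∀ (m l a L : ℕ) (θ : ℤ) (col : I l → V1 m l a L → Bool) (b : I l) (ρ : Fin a → Bool),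
    (∀ i, col b (Sum.inl i) = true) → (∀ j, j ≠ b → ∃ i, col j (Sum.inl i) = false) →
    (∀ s, θ ≤ (if ρ s then 1 else -1) * ∑ c, forrZ m l (fun p => col b (Sum.inr (s, c, p)))) →
    ∃ y : V2 m l a L → Bool, FValid θ (asm col ρ y) b ρ

/-- decision trees for leaf tests, head and checks -/
def FTrees : Prop :=
  ∀ (m l a L : ℕ) (θ : ℤ),
    ∃ (leaf : (Fin a → Bool) → I l → DT (VF m l a L) Bool)
      (head : I l → (Fin a → Bool) → DT (VF m l a L) Bool)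
      (chk : I l → (Fin a → Bool) → Ch m l a L → DT (VF m l a L) Bool),
      (∀ ρ j, (leaf ρ j).depth ≤ l + 1) ∧
      (∀ b ρ, (head b ρ).depth ≤ a * L * Bt m l) ∧
      (∀ b ρ c, (chk b ρ c).depth ≤ 3 * Bt m l + l + 1) ∧
      (∀ x ρ j, (leaf ρ j).eval x = true ↔ vbit x (zrow x ρ j) j = false) ∧
      (∀ x b ρ, (head b ρ).eval x = true ↔ headP θ x ρ) ∧
      (∀ x b ρ c, (chk b ρ c).eval x = true ↔ chkP x b ρ c)

/-- the decoding kernel: `M` Hadamard tests per address bit, majority -/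
def FDecode : Prop :=
  PartQTree → PartQBind → PartQForr →
  ∀ (m l a L M : ℕ) (lam : ℝ), 1 ≤ a → 1 ≤ L → 0 < lam → 2 * a ≤ M * lam ^ 2 →
    ∀ b : I l, ∃ dec : (VF m l a L → Bool) → (Fin a → Bool) → ℝ,
      Realizable (a * M * (m + 1)) dec ∧
      ∀ (x : VF m l a L → Bool) (ρ : Fin a → Bool),
        (∀ s, lam ≤ (if ρ s then 1 else -1) * ((∑ c, forr m l (wblk x b s c)) / L)) →
        1 / 2 ≤ dec x ρ

/-- quantum upper bound for `F` -/
def FQuant : Prop :=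
  ∃ C : ℕ, ∀ (m l a L M : ℕ) (θ : ℤ), 1 ≤ l → 1 ≤ a → 1 ≤ L → 0 < θ →
    (2 * a : ℝ) ≤ M * ((θ : ℝ) / (L * (Real.sqrt (2 ^ l)) ^ (m + 2))) ^ 2 →
    ∃ T, QuantComputes T (FF m l a L θ) ∧
      T ≤ C * (l + a + 2) ^ 6 * ((Nat.sqrt (2 ^ l) + 1) * (a * M * (m + 1) + 4 * Bt m l) +
        (Nat.sqrt ((m + 2) * (l + 2) * a * L * 2 ^ l * 4) + 1) * (4 * Bt m l) + a * L * Bt m l)

/-- classical lower bound for `F` -/
def FClass : Prop :=
  ∀ (m l a L q : ℕ) (θ : ℤ) (lam η : ℝ)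
    (law : Bool → (Fin (m + 1) × I l → Bool) → ℝ),
    1 ≤ m → 1 ≤ a → 1 ≤ L → 0 < lam → (∀ σ, IsLaw (law σ)) →
    (∀ σ, lam ≤ (if σ then 1 else -1) * ∑ x, law σ x * forr m l x) →
    (∀ σ, ∀ T : DT (Fin (m + 1) × I l) Bool, T.depth ≤ q →
      |acc (law σ) T - acc (unif _) T| ≤ η) →
    (θ : ℝ) ≤ L * (Real.sqrt (2 ^ l)) ^ (m + 2) * (lam / 2) →
    ∀ t : ℕ, RandComputes t (FF m l a L θ) →
      1 / 3 ≤ 4 * a / (L * lam ^ 2) + t / (2 ^ l * (q + 1)) + t / 2 ^ a +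
        3 * (q / 2 ^ l + a * L * η)

/-- transport of the complexity measures to `Fin n` -/
def Reindex : Prop :=
  ∀ (V : Type) [Fintype V] [DecidableEq V] [Nonempty V] (f : (V → Bool) → Bool),
    ∃ g : (Fin (Fintype.card V) → Bool) → Bool,
      ∀ T, (RandComputes T g ↔ RandComputes T f) ∧ (QuantComputes T g ↔ QuantComputes T f)

/-- final lower bound on the exponent -/
def LowerBound : Prop :=
  ∀ α : ℝ, 0 ≤ α → α < 4 → ∀ C : ℝ, ∃ n : ℕ, 1 ≤ n ∧ ∃ f : (Fin n → Bool) → Bool,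
    C * (1 + (QQ f : ℝ)) ^ α < RQ f

def PartAsy : Prop := PartLaw → FQuant → FClass → Reindex → LowerBound

end P362
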