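import Vale.Agent.Lib.P362.Defs

/-! P362: statements of the parts. -/

namespace P362

/-! ### Part Q: closure properties of realizable kernels -/

/-- fixed distributions, decision trees -/
def PartQTree : Prop :=
  (∀ (V : Type) [Fintype V] [DecidableEq V] [Nonempty V] (R : Type) [Fintype R] [DecidableEq R]
      (p : R → ℝ), (∀ r, 0 ≤ p r) → ∑ r, p r = 1 →
      Realizable (V := V) 0 (fun _ r => p r)) ∧
  (∀ (V : Type) [Fintype V] [DecidableEq V] [Nonempty V] (R : Type) [Fintype R] [DecidableEq R]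
      (t : DT V R), Realizable t.depth (fun x r => if t.eval x = r then 1 else 0))

/-- sequential composition -/
def PartQBind : Prop :=
  ∀ (V : Type) [Fintype V] [DecidableEq V] [Nonempty V] (R S : Type) [Fintype R] [DecidableEq R]
    [Fintype S] [DecidableEq S] (q1 q2 : ℕ) (μ : (V → Bool) → R → ℝ)
    (ν : R → (V → Bool) → S → ℝ), Realizable q1 μ → (∀ r, Realizable q2 (ν r)) →
    Realizable (q1 + q2) (fun x s => ∑ r, μ x r * ν r x s)

/-- amplitude amplification with a random number of iterations -/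
def PartQAmp : Prop :=
  ∀ (V : Type) [Fintype V] [DecidableEq V] [Nonempty V] (R : Type) [Fintype R] [DecidableEq R]
    (q : ℕ) (μ : (V → Bool) → R → ℝ) (G : R → Bool) (J : ℕ), 1 ≤ J → Realizable q μ →
    ∃ ν : (V → Bool) → Option R → ℝ, Realizable ((2 * J + 1) * q) ν ∧
      ∀ x, ∃ c : ℝ, 0 ≤ c ∧ (∀ r, ν x (some r) = if G r then c * μ x r else 0) ∧
        (1 ≤ (J : ℝ) ^ 2 * ∑ r, (if G r then μ x r else 0) →
          1 / 4 ≤ ∑ r, ν x (some r))

/-- the Hadamard test for Forrelation; `w` places the input blocks among the variables -/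
def PartQForr : Prop :=
  ∀ (V : Type) [Fintype V] [DecidableEq V] [Nonempty V] (m l : ℕ)
    (w : Fin (m + 1) × I l → V),
    Realizable (m + 1) (fun (x : V → Bool) (r : Bool) =>
      if r then (1 + forr m l (fun p => x (w p))) / 2 else (1 - forr m l (fun p => x (w p))) / 2)

/-! ### Part QA: the abstract search algorithm -/

/-- `Valid x b ρ` for given head and checks -/
def Valid {V B A Ch : Type} (head : B → A → DT V Bool) (chk : B → A → Ch → DT V Bool)
    (x : V → Bool) (b : B) (ρ : A) : Prop :=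
  (head b ρ).eval x = true ∧ ∀ c, (chk b ρ c).eval x = true

def PartQAlg : Prop :=
  ∃ C : ℕ, ∀ (V B A Ch : Type) [Fintype V] [DecidableEq V] [Nonempty V] [Fintype B]
    [DecidableEq B] [Nonempty B] [Fintype A] [DecidableEq A] [Nonempty A] [Fintype Ch]
    [DecidableEq Ch] [Nonempty Ch] (leaf : A → B → DT V Bool)
    (dec : B → (V → Bool) → A → ℝ) (head : B → A → DT V Bool) (chk : B → A → Ch → DT V Bool)
    (p h qd : ℕ) (F : (V → Bool) → Bool),
    (∀ ρ j, (leaf ρ j).depth ≤ p) → (∀ b, Realizable qd (dec b)) →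
    (∀ b ρ, (head b ρ).depth ≤ h) → (∀ b ρ c, (chk b ρ c).depth ≤ p) →
    (∀ x, F x = true ↔ ∃ b ρ, Valid head chk x b ρ) →
    (∀ x b ρ, Valid head chk x b ρ → 1 / 2 ≤ dec b x ρ) →
    (∀ x b ρ, Valid head chk x b ρ → ∀ ρ', (leaf ρ' b).eval x = false) →
    (∀ x b ρ, Valid head chk x b ρ → ∀ j, j ≠ b → (leaf ρ j).eval x = true) →
    ∃ T, QuantComputes T F ∧
      T ≤ C * (Nat.log 2 (Fintype.card B) + Nat.log 2 (Fintype.card A) + 2) ^ 6 *
        ((Nat.sqrt (Fintype.card B) + 1) * (qd + p + 1) +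
          (Nat.sqrt (Fintype.card Ch) + 1) * (p + 1) + h)

/-! ### Part Law: the k-fold Forrelation distributions (k = m + 1 blocks) -/

/-- probability that `T` outputs `true` under the law `μ` -/
noncomputable def acc {V : Type} [Fintype V] [DecidableEq V] (μ : (V → Bool) → ℝ)
    (T : DT V Bool) : ℝ :=
  ∑ x, if T.eval x = true then μ x else 0

def IsLaw {V : Type} [Fintype V] [DecidableEq V] (μ : (V → Bool) → ℝ) : Prop :=
  (∀ x, 0 ≤ μ x) ∧ ∑ x, μ x = 1

noncomputable def unif (V : Type) [Fintype V] [DecidableEq V] : (V → Bool) → ℝ :=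
  fun _ => 1 / 2 ^ Fintype.card V

def PartLaw : Prop :=
  ∀ (m : ℕ), 1 ≤ m → ∀ ε : ℝ, 0 < ε → ε < 1 / 100 → ∃ l0 : ℕ, ∀ l ≥ l0,
    ∃ law : Bool → (Fin (m + 1) × I l → Bool) → ℝ, (∀ σ, IsLaw (law σ)) ∧
      (∀ σ, ((2 : ℝ) ^ l) ^ (-ε) ≤ (if σ then 1 else -1) * ∑ x, law σ x * forr m l x) ∧
      (∀ σ, ∀ T : DT (Fin (m + 1) × I l) Bool,
        (T.depth : ℝ) ≤ ((2 : ℝ) ^ l) ^ (1 - 1 / ((m : ℝ) + 1) - 10 * ε) →
        |acc (law σ) T - acc (unif _) T| ≤ ((2 : ℝ) ^ l) ^ (-(5 * ε)))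

/-! ### Part Hyb: the hybrid argument -/

/-- content of the whole input: columns `c`, cell `ρ` of the array contains `y`, other cells
are zero -/
def asm {B A V1 V2 : Type} [DecidableEq A] (c : B → V1 → Bool) (ρ : A) (y : V2 → Bool) :
    (B × V1) ⊕ (A × V2) → Bool
  | Sum.inl p => c p.1 p.2
  | Sum.inr p => if p.1 = ρ then y p.2 else false

/-- input with empty array -/
def asm0 {B A V1 V2 : Type} (c : B → V1 → Bool) : (B × V1) ⊕ (A × V2) → Bool
  | Sum.inl p => c p.1 p.2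
  | Sum.inr _ => false

def PartHyb : Prop :=
  ∀ (B A V1 V2 : Type) [Fintype B] [DecidableEq B] [Nonempty B] [Fintype A] [DecidableEq A]
    [Nonempty A] [Fintype V1] [DecidableEq V1] [Fintype V2] [DecidableEq V2]
    (μ : (V1 → Bool) → ℝ) (ν : A → (V1 → Bool) → ℝ)
    (y : B → A → (B → V1 → Bool) → (V2 → Bool)) (η : ℝ) (q t : ℕ),
    IsLaw μ → (∀ ρ, IsLaw (ν ρ)) → 0 ≤ η →
    (∀ ρ, ∀ T : DT V1 Bool, T.depth ≤ q → |acc (ν ρ) T - acc μ T| ≤ η) →
    ∀ T : DT ((B × V1) ⊕ (A × V2)) Bool, T.depth ≤ t →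
      (∑ b : B, ∑ ρ : A, ∑ c : B → V1 → Bool,
        (ν ρ (c b) * ∏ b' ∈ Finset.univ.erase b, μ (c b')) *
          (if T.eval (asm c ρ (y b ρ c)) = true then 1 else 0)) /
          (Fintype.card B * Fintype.card A) ≤
        (∑ c : B → V1 → Bool, (∏ b', μ (c b')) * (if T.eval (asm0 c) = true then 1 else 0)) +
          t / (Fintype.card B * (q + 1)) + t / Fintype.card A + 3 * η

/-- product of independent components: distinguishing advantages add up -/
def PartProd : Prop :=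
  ∀ (D : Type) [Fintype D] [DecidableEq D] (X : D → Type) [∀ d, Fintype (X d)]
    [∀ d, DecidableEq (X d)] (μ ν : (d : D) → (X d → Bool) → ℝ) (η : D → ℝ) (q : ℕ),
    (∀ d, IsLaw (μ d)) → (∀ d, IsLaw (ν d)) →
    (∀ d, ∀ T : DT (X d) Bool, T.depth ≤ q → |acc (ν d) T - acc (μ d) T| ≤ η d) →
    ∀ T : DT (Σ d, X d) Bool, T.depth ≤ q →
      |acc (fun x : (Σ d, X d) → Bool => ∏ d, ν d (fun v => x ⟨d, v⟩)) T -
        acc (fun x : (Σ d, X d) → Bool => ∏ d, μ d (fun v => x ⟨d, v⟩)) T| ≤ ∑ d, η d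

/-- one hidden zero versus all ones (`true` is a one) -/
def PartZero : Prop :=
  ∀ (X : Type) [Fintype X] [DecidableEq X] [Nonempty X] (q : ℕ) (T : DT X Bool), T.depth ≤ q →
    |acc (fun x : X → Bool => if x = (fun _ => true) then 1 else 0) T -
      acc (fun x : X → Bool => (∑ i : X, if x = (fun j => decide (j ≠ i)) then 1 else 0) /
        Fintype.card X) T| ≤ q / Fintype.card X

end P362
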